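import Vale.Agent.P363.Fin

namespace Vale.Agent.Results.P363.NotRepr

open MeasureTheory Vale.Agent.P363S

theorem result : ∃ nuc : List (Pt × ℕ), nuc ≠ [] ∧ (nuc.map Prod.fst).Nodup ∧
    (∀ p ∈ nuc, 0 < p.2) ∧ ∃ Ψ : Wave 3, IsGround (formC nuc) Ψ ∧
      ∫ x, dens Ψ x = 3 ∧ ¬Repr 2 (dens Ψ) :=
  Vale.Agent.P363.final

end Vale.Agent.Results.P363.NotRepr
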